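import Vale.Agent.P216.A215.Stmt
import Mathlib.Geometry.Manifold.Riemannian.Basic

/-!
# Definitions used in the statement of `Results/P216/ClosedGeodesicsAll`

* `IsLocIsom p` : the map `p` preserves distances on a ball around every point;
* `HasOddCover M` : a closed Riemannian manifold `N` satisfying the hypotheses of Theorem A has a
  local isometry to `M`.
-/

open Set Topology Bundle Manifold Metric
open scoped ContDiff

namespace Vale.Agent.P216.H126

/-- `p` is an isometry on a ball around every point. -/
def IsLocIsom {N M : Type*} [MetricSpace N] [MetricSpace M] (p : N → M) : Prop :=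
  ∀ x, ∃ r > 0, ∀ y ∈ ball x r, ∀ z ∈ ball x r, dist (p y) (p z) = dist y z

/-- Some closed connected Riemannian manifold `N` with a local isometry `p : N → M` (for example a
finite covering of `M` with the lifted metric, or `M` itself) has nonzero Euler characteristic and a
class of degree two which is odd on some `2`-sphere. -/
inductive HasOddCover (M : Type) [MetricSpace M] : Prop
  | intro {E : Type} [NormedAddCommGroup E] [NormedSpace ℝ E] [FiniteDimensional ℝ E]
      {N : Type} [MetricSpace N] [CompactSpace N] [ConnectedSpace N] [ChartedSpace E N]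
      [IsManifold 𝓘(ℝ, E) ∞ N]
      [RiemannianBundle (fun x : N => TangentSpace 𝓘(ℝ, E) x)]
      [IsContMDiffRiemannianBundle 𝓘(ℝ, E) ∞ E (fun x : N => TangentSpace 𝓘(ℝ, E) x)]
      [IsRiemannianManifold 𝓘(ℝ, E) N]
      (p : N → M) (hp : IsLocIsom p)
      (K d : ℕ) (hd : Odd d) (Φ : C(N, CPn (K + 1))) (f : C(CPn 1, N))
      (hf : (Φ.comp f).Homotopic (powMap K d))
      {V : Type} [NormedAddCommGroup V] [NormedSpace ℝ V]
      (T : Geometry.SimplicialComplex ℝ V) (hT : T.faces.Finite)
      (e : ContinuousMap.HomotopyEquiv N T.space) (hχ : eulerChar T hT ≠ 0) : HasOddCover M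

end Vale.Agent.P216.H126
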