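import Vale.Agent.P216.H494.Dict
import Vale.Agent.P216.H126.Stmt
import Mathlib.Topology.SeparatedMap

/-!
# P216 (helper126): closed geodesics and local isometries

`p : N → M` a local isometry of metric spaces, `N` compact, `M` non-branching.  If `N` has infinitely
many closed geodesics, so has `M`.
-/

open Set Filter Topology Metric

namespace Vale.Agent.P216.H126

open Vale.Agent.P216.H494

section

variable {N M : Type*} [MetricSpace N] [MetricSpace M] {p : N → M}

theorem IsLocIsom.injective (hp : IsLocIsom p) (x : N) : ∃ r > 0, InjOn p (ball x r) := by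
  obtain ⟨r, hr, h⟩ := hp x
  refine ⟨r, hr, fun y hy z hz hyz => ?_⟩
  rw [← dist_eq_zero, ← h y hy z hz, hyz, dist_self]

theorem IsLocIsom.comp (hp : IsLocIsom p) {c : ℝ → N} {v : ℝ} (hc : IsGeodesicWithSpeed c v) :
    IsGeodesicWithSpeed (fun t => p (c t)) v := by
  intro t
  obtain ⟨ε, hε, h⟩ := hc t
  obtain ⟨r, hr, h'⟩ := hp (c t)
  obtain ⟨δ, hδ, h''⟩ := Metric.continuousAt_iff.1 (hc.continuous.continuousAt (x := t)) r hr
  refine ⟨min ε δ, lt_min hε hδ, fun s s' hs hs' => ?_⟩
  rw [h' _ (h'' (by rw [Real.dist_eq]; exact hs.trans_le (min_le_right _ _))) _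
    (h'' (by rw [Real.dist_eq]; exact hs'.trans_le (min_le_right _ _)))]
  exact h s s' (hs.trans_le (min_le_left _ _)) (hs'.trans_le (min_le_left _ _))

theorem IsLocIsom.finite_fiber [CompactSpace N] (hp : IsLocIsom p) (m : M) :
    {y | p y = m}.Finite := by
  choose r hr h using hp.injective
  obtain ⟨t, -, ht⟩ := isCompact_univ.elim_finite_subcover_image (b := univ) (c := fun x : N => ball x (r x))
    (fun x _ => isOpen_ball) (fun x _ => mem_iUnion₂.2 ⟨x, mem_univ x, mem_ball_self (hr x)⟩)
  obtain ⟨ht1, ht2⟩ := ht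
  refine (ht1.biUnion (t := fun x => {y | p y = m} ∩ ball x (r x)) fun x _ => ?_).subset ?_
  · refine Set.Subsingleton.finite fun y hy z hz => h x hy.2 hz.2 (hy.1.trans hz.1.symm)
  · intro y hy
    obtain ⟨x, hx, hyx⟩ := mem_iUnion₂.1 (ht2 (mem_univ y))
    exact mem_iUnion₂.2 ⟨x, hx, hy, hyx⟩

/-- uniqueness of lifts -/
theorem IsLocIsom.lift_unique (hp : IsLocIsom p) {c c' : ℝ → N} (hc : Continuous c)
    (hc' : Continuous c') (h : ∀ t, p (c t) = p (c' t)) (h0 : c 0 = c' 0) : c = c' := by
  have hclosed : IsClosed {t | c t = c' t} := isClosed_eq hc hc'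
  have hopen : IsOpen {t | c t = c' t} := by
    rw [isOpen_iff_mem_nhds]
    intro t ht
    obtain ⟨r, hr, hi⟩ := hp.injective (c t)
    have h1 : ∀ᶠ s in 𝓝 t, c s ∈ ball (c t) r :=
      hc.continuousAt (ball_mem_nhds _ hr)
    have h2 : ∀ᶠ s in 𝓝 t, c' s ∈ ball (c t) r := by
      have := hc'.continuousAt (x := t) (ball_mem_nhds (c' t) hr)
      rw [show c t = c' t from ht]
      exact this
    filter_upwards [h1, h2] with s hs hs'
    exact hi hs hs' (h s)
  have := IsClopen.eq_univ ⟨hclosed, hopen⟩ ⟨0, h0⟩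
  funext t
  exact this.symm.subset (mem_univ t)

/-- **Closed geodesics and local isometries.** -/
theorem infinite_of_locIsom [CompactSpace N] (hNB : NonBranching M) (hp : IsLocIsom p)
    (hinf : (primeClosedGeodesicImages N).Infinite) : (primeClosedGeodesicImages M).Infinite := by
  intro hfin
  obtain ⟨G⟩ := exists_geoList hNB hfin
  have := G.fin
  have key : ∀ S : primeClosedGeodesicImages N, ∃ (j : G.ι) (c : ℝ → N), Continuous c ∧
      (∀ t, p (c t) = G.c j t) ∧ range c = S.1 := by
    rintro ⟨S, c, τ, ⟨⟨v, hv, hc⟩, hτ, hper, -⟩, rfl⟩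
    have h2 := hc.normalize hv
    have h3 : Function.Periodic (fun t => p (c (t / v))) (v * τ) := fun t => by
      show p (c ((t + v * τ) / v)) = p (c (t / v))
      rw [add_div, mul_div_cancel_left₀ _ hv.ne', hper]
    obtain ⟨j, e, he, b, hb⟩ := G.all _ (hp.comp h2) _ (mul_pos hv hτ) h3
    have hee : e * e = 1 := by rcases he with rfl | rfl <;> norm_num
    refine ⟨j, fun t => c (e * (t - b) / v), ?_, fun t => ?_, ?_⟩
    · exact hc.continuous.comp (by fun_prop)
    · have h5 := hb (e * (t - b))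
      show p (c (e * (t - b) / v)) = G.c j t
      rw [h5]
      congr 1
      rw [← mul_assoc, hee]
      ring
    · ext y
      constructor
      · rintro ⟨t, rfl⟩
        exact ⟨_, rfl⟩
      · rintro ⟨t, rfl⟩
        refine ⟨e * (v * t) + b, ?_⟩
        show c (e * (e * (v * t) + b - b) / v) = c t
        congr 1
        rw [add_sub_cancel_right, ← mul_assoc, ← mul_assoc, hee]
        field_simp
  choose j c h1 h2 h3 using key
  have hfib : Finite (Σ i : G.ι, {y : N | p y = G.c i 0}) := by
    have : ∀ i : G.ι, Finite {y : N | p y = G.c i 0} := fun i => (hp.finite_fiber _).to_subtype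
    infer_instance
  have := hinf.to_subtype
  refine not_injective_infinite_finite
    (fun S : primeClosedGeodesicImages N => (⟨j S, c S 0, h2 S 0⟩ : Σ i : G.ι, {y : N | p y = G.c i 0}))
    fun S S' hSS => ?_
  have e1 : j S = j S' := congrArg Sigma.fst hSS
  have e2 : c S 0 = c S' 0 := by
    have : ∀ a b : Σ i : G.ι, {y : N | p y = G.c i 0}, a = b → (a.2 : N) = b.2 := by
      rintro a b rfl
      rfl
    exact this _ _ hSS
  have e3 : c S = c S' := hp.lift_unique (h1 S) (h1 S') (fun t => by rw [h2, h2, e1]) e2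
  exact Subtype.ext (by rw [← h3 S, ← h3 S', e3])

end

end Vale.Agent.P216.H126
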