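import Vale.Agent.P216.H215.Monogenic
import Vale.Agent.P216.H215.ResidDef
import Mathlib.Topology.Covering.Basic
import Mathlib.AlgebraicTopology.FundamentalGroupoid.SimplyConnected
import Mathlib.GroupTheory.SpecificGroups.Dihedral
import Mathlib.Data.Real.Basic

/-!
# Definitions used in the statement of the theorem on closed manifolds

* `MonogenicCovered M` : `M` (or a component of `M`) is covered by a compact simply connected space
  whose rational cohomology ring is generated by one class of degree at least four.
* `CyclicallyCovered G` : `G` is the union of the conjugates of finitely many cyclic subgroups (with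
  linear control of the exponents).
* `LargeGroup G` : `G` is not cyclically covered, or its largest residually finite quotient is
  infinite, different from `ℤ` and from the infinite dihedral group (and satisfies one of two
  conditions, the first of which is true for all groups by the classification of the finite simple
  groups).
-/

open Set Topology

namespace Vale.Agent.P216.H126

/-- Some compact simply connected covering space of `M` (or of a component of `M`) has rational
cohomology `ℚ[x] / (x ^ (h + 1))` with `x` of degree `d ≥ 4`. -/
inductive MonogenicCovered (M : Type) [TopologicalSpace M] : Prop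
  | intro {X : Type} [TopologicalSpace X] [CompactSpace X] [T2Space X] [SimplyConnectedSpace X]
      (q : X → M) (hq : IsCoveringMap q) {d h : ℕ} (hd : 4 ≤ d) (hh : 1 ≤ h)
      (hdh : Even d ∨ h = 1) (hX : ASCoh.Monogenic X ℚ d h) : MonogenicCovered M

/-- `G` is the union of the conjugates of finitely many cyclic subgroups; an element `g` is
conjugate to a power `a ^ k` with `|k| ≤ lam g`, where `lam` is subadditive. -/
def CyclicallyCovered (G : Type) [Group G] : Prop :=
  ∃ (F : Finset G) (lam : G → ℝ), (∀ g h, lam (g * h) ≤ lam g + lam h) ∧
    ∀ g : G, ∃ a ∈ F, ∃ k : ℤ, |(k : ℝ)| ≤ lam g ∧ IsConj g (a ^ k)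

/-- `G` is not cyclically covered, or `G ⧸ R`, `R` the finite residual, is infinite, not isomorphic
to `ℤ` or to the infinite dihedral group, and (a) almost simple finite sections of `G` are solvable
modulo the socle, or (b) some subgroup of finite index has finite solvable quotients of unbounded
order. -/
def LargeGroup (G : Type) [Group G] : Prop :=
  ¬ CyclicallyCovered G ∨
    (¬ (finiteResidual G).FiniteIndex ∧
      IsEmpty ((G ⧸ finiteResidual G) ≃* Multiplicative ℤ) ∧
      IsEmpty ((G ⧸ finiteResidual G) ≃* DihedralGroup 0) ∧
      (AlmostSimpleSolvable G ∨
        ∃ H : Subgroup G, H.FiniteIndex ∧ ∀ n : ℕ,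
          ∃ (N : Subgroup H) (_ : N.Normal), N.FiniteIndex ∧ n ≤ N.index ∧
            Group.IsSolvable (H ⧸ N)))

end Vale.Agent.P216.H126
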