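import Vale.Agent.P216.H215.ProP
import Vale.Agent.P216.H215.Resid
import Vale.Agent.P216.H215.MonoHomeo
import Vale.Agent.P216.H494.CovMain
import Vale.Agent.P216.H126.Stmt5

/-!
# P216 (helper126): the fundamental group alternative, and covered manifolds from the theorem on
simply connected manifolds
-/

open Set Topology Bundle Manifold
open scoped ContDiff
open Vale.Agent.P216.H494

namespace Vale.Agent.P216.H126

section

variable (E : Type) [NormedAddCommGroup E] [NormedSpace ℝ E] [FiniteDimensional ℝ E]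
    {M : Type} [MetricSpace M] [CompactSpace M] [ChartedSpace E M] [IsManifold 𝓘(ℝ, E) ∞ M]
    [RiemannianBundle (fun x : M => TangentSpace 𝓘(ℝ, E) x)]
    [IsContMDiffRiemannianBundle 𝓘(ℝ, E) ∞ E (fun x : M => TangentSpace 𝓘(ℝ, E) x)]
    [IsRiemannianManifold 𝓘(ℝ, E) M]

include E in
theorem cyclicallyCovered_of_finite (x₀ : M) (hfin : (primeClosedGeodesicImages M).Finite) :
    CyclicallyCovered (FundamentalGroup M x₀) := by
  obtain ⟨F, lam, hF, hsub, hcov⟩ :=
    stronglyFinitelyCyclicallyCovered_fundamentalGroup E M x₀ hfin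
  refine ⟨hF.toFinset, lam, hsub, fun g => ?_⟩
  obtain ⟨a, ha, k, hk, hc⟩ := hcov g
  exact ⟨a, hF.mem_toFinset.2 ha, k, by exact_mod_cast hk, hc⟩

include E in
/-- The fundamental group alternative. -/
theorem infinite_of_largeGroup (x₀ : M) (h : LargeGroup (FundamentalGroup M x₀)) :
    (primeClosedGeodesicImages M).Infinite := by
  intro hfin
  rcases h with h | ⟨hR, hZ, hD, hQ⟩
  · exact h (cyclicallyCovered_of_finite E x₀ hfin)
  · rcases RFS.residual_quotient (sfcc_fundamentalGroup E M x₀ hfin) hR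
      (hQ.imp_left fun h U hU N hN hN0 S hS hs hnc hz => h U ⟨hU⟩ N hN ⟨hN0⟩ S hS hs hnc hz)
      with ⟨⟨e⟩⟩ | ⟨⟨e⟩⟩
    · exact hZ.false e
    · exact hD.false e

end

/-- **The theorem on simply connected manifolds with rational cohomology generated by one class of
degree at least four.** -/
def D3Goal : Prop :=
  ∀ {E : Type} [NormedAddCommGroup E] [NormedSpace ℝ E] [FiniteDimensional ℝ E]
    {N : Type} [MetricSpace N] [CompactSpace N] [ChartedSpace E N] [IsManifold 𝓘(ℝ, E) ∞ N]
    [RiemannianBundle (fun x : N => TangentSpace 𝓘(ℝ, E) x)]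
    [IsContMDiffRiemannianBundle 𝓘(ℝ, E) ∞ E (fun x : N => TangentSpace 𝓘(ℝ, E) x)]
    [IsRiemannianManifold 𝓘(ℝ, E) N] [SimplyConnectedSpace N] {d h : ℕ},
    4 ≤ d → 1 ≤ h → (Even d ∨ h = 1) → ASCoh.Monogenic N ℚ d h →
    (primeClosedGeodesicImages N).Infinite

variable (E : Type) [NormedAddCommGroup E] [NormedSpace ℝ E] [FiniteDimensional ℝ E]
    {M : Type} [MetricSpace M] [CompactSpace M] [ChartedSpace E M] [IsManifold 𝓘(ℝ, E) ∞ M]
    [RiemannianBundle (fun x : M => TangentSpace 𝓘(ℝ, E) x)]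
    [IsContMDiffRiemannianBundle 𝓘(ℝ, E) ∞ E (fun x : M => TangentSpace 𝓘(ℝ, E) x)]
    [IsRiemannianManifold 𝓘(ℝ, E) M]

include E in
theorem infinite_of_monogenicCovered_of (H : D3Goal) (h : MonogenicCovered M) :
    (primeClosedGeodesicImages M).Infinite := by
  obtain @⟨X, _, _, _, _, q, hq, d, h, hd, hh, hdh, hX⟩ := h
  refine infinite_of_localHomeomorph (E := E) hq.isLocalHomeomorph ?_
  intro N _ _ _ _ _ _ _ hN
  obtain ⟨e⟩ := hN
  have : SimplyConnectedSpace N := e.toHomotopyEquiv.simplyConnectedSpace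
  exact H (E := E) hd hh hdh (hX.of_homeo e.symm)

end Vale.Agent.P216.H126
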