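import Vale.Agent.P216.H126.Stmt4
import Vale.Agent.P216.H893.CaTop

/-!
# The two forms of the Cayley plane
-/

open Set Topology Quaternion

namespace Vale.Agent.P216.H126

theorem mem_cayleySet_iff (A : Fin 3 → Fin 3 → ℍ[ℝ] × ℍ[ℝ]) :
    A ∈ cayleySet ↔ (A : H893.OMat) ∈ H893.CaP2 := by
  constructor
  · rintro ⟨h1, h2, h3⟩
    exact ⟨h1, funext fun i => funext fun j => h2 i j, h3⟩
  · rintro ⟨h1, h2, h3⟩
    exact ⟨h1, fun i j => congrFun (congrFun h2 i) j, h3⟩

/-- The two forms of the Cayley plane. -/
noncomputable def homeoCayley : CayleyPlane ≃ₜ ↥H893.CaP2 where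
  toFun A := ⟨A.1, (mem_cayleySet_iff A.1).1 A.2⟩
  invFun A := ⟨A.1, (mem_cayleySet_iff A.1).2 A.2⟩
  left_inv _ := rfl
  right_inv _ := rfl
  continuous_toFun := by
    refine Continuous.subtype_mk ?_ _
    exact continuous_subtype_val
  continuous_invFun := by
    refine Continuous.subtype_mk ?_ _
    exact continuous_subtype_val

instance : CompactSpace CayleyPlane := homeoCayley.symm.compactSpace

instance : ConnectedSpace CayleyPlane :=
  homeoCayley.symm.surjective.connectedSpace homeoCayley.symm.continuous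

end Vale.Agent.P216.H126
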