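import Vale.Agent.P216.A215.Stmt
import Mathlib.Topology.Covering.Basic

/-!
# Definitions used in the statement of the union theorem

* `OddCovered M` : a compact connected Hausdorff space `X` satisfying the topological hypotheses of
  Theorem A has a covering map to (a component of) `M`.
-/

open Set Topology

namespace Vale.Agent.P216.H126

/-- Some compact connected Hausdorff covering space `X` of `M` (or of a component of `M`), homotopy
equivalent to a finite simplicial complex, has nonzero Euler characteristic and a class of degree
two which is odd on some `2`-sphere. -/
inductive OddCovered (M : Type) [TopologicalSpace M] : Prop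
  | intro {X : Type} [TopologicalSpace X] [CompactSpace X] [T2Space X] [ConnectedSpace X]
      (q : X → M) (hq : IsCoveringMap q)
      (K d : ℕ) (hd : Odd d) (Φ : C(X, CPn (K + 1))) (f : C(CPn 1, X))
      (hf : (Φ.comp f).Homotopic (powMap K d))
      {V : Type} [NormedAddCommGroup V] [NormedSpace ℝ V]
      (T : Geometry.SimplicialComplex ℝ V) (hT : T.faces.Finite)
      (e : ContinuousMap.HomotopyEquiv X T.space) (hχ : eulerChar T hT ≠ 0) : OddCovered M

end Vale.Agent.P216.H126
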