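import Vale.Agent.P216.B64.MainAll
import Vale.Agent.P216.H609.Main
import Vale.Agent.P216.H494.CovMain
import Vale.Agent.P216.H126.Stmt3

/-!
# P216 (helper126): Theorems A and B for covered manifolds (topological hypotheses)
-/

open Set Topology Bundle Manifold
open scoped ContDiff
open Vale.Agent.P216.H288 Vale.Agent.P216.H494 Vale.Agent.P216.L250

namespace Vale.Agent.P216.H126

variable (E : Type) [NormedAddCommGroup E] [NormedSpace ℝ E] [FiniteDimensional ℝ E]
    {M : Type} [MetricSpace M] [CompactSpace M] [ChartedSpace E M] [IsManifold 𝓘(ℝ, E) ∞ M]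
    [RiemannianBundle (fun x : M => TangentSpace 𝓘(ℝ, E) x)]
    [IsContMDiffRiemannianBundle 𝓘(ℝ, E) ∞ E (fun x : M => TangentSpace 𝓘(ℝ, E) x)]
    [IsRiemannianManifold 𝓘(ℝ, E) M]

include E in
/-- `M` covered by `S^n`, `n ≥ 4`. -/
theorem infinite_of_sphere_covering {n : ℕ} (hn : 4 ≤ n)
    {q : Metric.sphere (0 : EuclideanSpace ℝ (Fin (n + 1))) 1 → M} (hq : IsCoveringMap q) :
    (primeClosedGeodesicImages M).Infinite := by
  have : ConnectedSpace (Metric.sphere (0 : EuclideanSpace ℝ (Fin (n + 1))) 1) :=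
    isConnected_iff_connectedSpace.1 (isConnected_sphere (by
      rw [← Module.finrank_eq_rank, finrank_euclideanSpace, Fintype.card_fin]
      exact_mod_cast (by omega : 1 < n + 1)) _ zero_le_one)
  refine infinite_of_localHomeomorph (E := E) hq.isLocalHomeomorph ?_
  intro N _ _ _ _ _ _ _ hN
  obtain ⟨e⟩ := hN
  exact B64.main (E := E) hn e

include E in
/-- `M` covered by a homotopy complex projective space. -/
theorem infinite_of_CPn_covering {n : ℕ} (hn : 1 ≤ n)
    {X : Type} [TopologicalSpace X] [CompactSpace X] [T2Space X] [ConnectedSpace X]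
    {q : X → M} (hq : IsCoveringMap q) (e : ContinuousMap.HomotopyEquiv X (CPn n)) :
    (primeClosedGeodesicImages M).Infinite := by
  refine infinite_of_localHomeomorph (E := E) hq.isLocalHomeomorph ?_
  intro N _ _ _ _ _ _ _ hN
  obtain ⟨g⟩ := hN
  exact H609.theoremA_CPn (E := E) hn (g.toHomotopyEquiv.trans e)

include E in
/-- `M` covered by a space satisfying the hypotheses of Theorem A. -/
theorem infinite_of_oddCovered (h : OddCovered M) : (primeClosedGeodesicImages M).Infinite := by
  obtain @⟨X, _, _, _, _, q, hq, K, d, hd, Φ, f, hf, V, _, _, T, hT, e, hχ⟩ := h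
  refine infinite_of_localHomeomorph (E := E) hq.isLocalHomeomorph ?_
  intro N _ _ _ _ _ _ _ hN
  obtain ⟨g⟩ := hN
  have : ConnectedSpace N := g.symm.surjective.connectedSpace g.symm.continuous
  refine H609.theoremA_maps (E := E) K d hd (Φ.comp ⟨g, g.continuous⟩)
    ((⟨g.symm, g.symm.continuous⟩ : C(X, N)).comp f) ?_ T hT (g.toHomotopyEquiv.trans e) hχ
  have h1 : (Φ.comp (⟨g, g.continuous⟩ : C(N, X))).comp
      ((⟨g.symm, g.symm.continuous⟩ : C(X, N)).comp f) = Φ.comp f := by
    ext x
    simp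
  rw [h1]
  exact hf

end Vale.Agent.P216.H126
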