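import Vale.Agent.P216.S376.Main
import Vale.Agent.P216.H215.SphereTwoMain
import Vale.Agent.P216.H126.CovUnion

/-!
# P216 (helper126): manifolds covered by a sphere of any dimension `n ≥ 2`
-/

open Set Topology Bundle Manifold
open scoped ContDiff
open Vale.Agent.P216.H288 Vale.Agent.P216.H494 Vale.Agent.P216.L250

namespace Vale.Agent.P216.H126

/-- Every closed Riemannian manifold homeomorphic to a sphere of dimension `n ≥ 2` has infinitely
many closed geodesics. -/
theorem infinite_of_sphere {E : Type} [NormedAddCommGroup E] [NormedSpace ℝ E]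
    [FiniteDimensional ℝ E]
    {M : Type} [MetricSpace M] [CompactSpace M] [ChartedSpace E M] [IsManifold 𝓘(ℝ, E) ∞ M]
    [RiemannianBundle (fun x : M => TangentSpace 𝓘(ℝ, E) x)]
    [IsContMDiffRiemannianBundle 𝓘(ℝ, E) ∞ E (fun x : M => TangentSpace 𝓘(ℝ, E) x)]
    [IsRiemannianManifold 𝓘(ℝ, E) M] {n : ℕ} (hn : 2 ≤ n)
    (e : M ≃ₜ Metric.sphere (0 : EuclideanSpace ℝ (Fin (n + 1))) 1) :
    (primeClosedGeodesicImages M).Infinite := by
  match n, hn, e with
  | 2, _, e => exact H215.infinite_of_sphereTwo (E := E) e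
  | 3, _, e => exact S376.main_three (E := E) e
  | n + 4, _, e => exact B64.main (E := E) (Nat.le_add_left 4 n) e

variable (E : Type) [NormedAddCommGroup E] [NormedSpace ℝ E] [FiniteDimensional ℝ E]
    {M : Type} [MetricSpace M] [CompactSpace M] [ChartedSpace E M] [IsManifold 𝓘(ℝ, E) ∞ M]
    [RiemannianBundle (fun x : M => TangentSpace 𝓘(ℝ, E) x)]
    [IsContMDiffRiemannianBundle 𝓘(ℝ, E) ∞ E (fun x : M => TangentSpace 𝓘(ℝ, E) x)]
    [IsRiemannianManifold 𝓘(ℝ, E) M]

include E in
/-- `M` covered by `S^n`, `n ≥ 2`. -/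
theorem infinite_of_sphere_covering2 {n : ℕ} (hn : 2 ≤ n)
    {q : Metric.sphere (0 : EuclideanSpace ℝ (Fin (n + 1))) 1 → M} (hq : IsCoveringMap q) :
    (primeClosedGeodesicImages M).Infinite := by
  have : ConnectedSpace (Metric.sphere (0 : EuclideanSpace ℝ (Fin (n + 1))) 1) :=
    isConnected_iff_connectedSpace.1 (isConnected_sphere (by
      rw [← Module.finrank_eq_rank, finrank_euclideanSpace, Fintype.card_fin]
      exact_mod_cast (by omega : 1 < n + 1)) _ zero_le_one)
  refine infinite_of_localHomeomorph (E := E) hq.isLocalHomeomorph ?_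
  intro N _ _ _ _ _ _ _ hN
  obtain ⟨e⟩ := hN
  exact infinite_of_sphere (E := E) hn e

end Vale.Agent.P216.H126
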