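import Vale.Agent.P216.H215.SCGlue
import Vale.Agent.P216.H126.CovUnion2
import Vale.Agent.P216.H126U.U5

/-!
# P216 (helper126): closed manifolds with finite fundamental group
-/

open Set Topology Bundle Manifold
open scoped ContDiff
open Vale.Agent.P216.H494

namespace Vale.Agent.P216.H126

/-- **Closed manifolds with finite fundamental group**, from the three theorems on simply connected
manifolds (`hE`, `hD`, `hV`). -/
theorem infinite_of_finite_pi1 (hE : H215.EGoal) (hD : D3Goal) (hV : H215.VGoal)
    (E : Type) [NormedAddCommGroup E] [NormedSpace ℝ E] [FiniteDimensional ℝ E]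
    {M : Type} [MetricSpace M] [CompactSpace M] [ChartedSpace E M] [IsManifold 𝓘(ℝ, E) ∞ M]
    [RiemannianBundle (fun x : M => TangentSpace 𝓘(ℝ, E) x)]
    [IsContMDiffRiemannianBundle 𝓘(ℝ, E) ∞ E (fun x : M => TangentSpace 𝓘(ℝ, E) x)]
    [IsRiemannianManifold 𝓘(ℝ, E) M] (hn : 2 ≤ Module.finrank ℝ E)
    (h3 : Module.finrank ℝ E = 3 →
      ∃ q : Metric.sphere (0 : EuclideanSpace ℝ (Fin 4)) 1 → M, IsCoveringMap q)
    (x₀ : M) (hfin : Finite (FundamentalGroup M x₀)) :
    (primeClosedGeodesicImages M).Infinite := by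
  by_cases hd : Module.finrank ℝ E = 3
  · obtain ⟨q, hq⟩ := h3 hd
    exact infinite_of_sphere_covering2 E (n := 3) (by norm_num) hq
  · obtain ⟨X, _, _, _, _, q, hq, -⟩ := H126U.exists_universal_cover_riemannian E x₀
    refine infinite_of_localHomeomorph (E := E) hq.isLocalHomeomorph ?_
    intro N _ _ _ _ _ _ _ hN
    obtain ⟨e⟩ := hN
    have : SimplyConnectedSpace N := e.toHomotopyEquiv.simplyConnectedSpace
    exact H215.infinite_simplyConnected (E := E) (N := N) @hE @hD @hV hn hd

end Vale.Agent.P216.H126
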