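import Vale.Agent.P216.H133C.MainC
import Vale.Agent.P216.H126.CovUnion2
import Vale.Agent.P216.H126.CayEq

/-!
# P216 (helper126): manifolds covered by a topological rank one symmetric space
-/

open Set Topology Bundle Manifold
open scoped ContDiff
open Vale.Agent.P216.H288 Vale.Agent.P216.H494 Vale.Agent.P216.L250

namespace Vale.Agent.P216.H126

variable (E : Type) [NormedAddCommGroup E] [NormedSpace ℝ E] [FiniteDimensional ℝ E]
    {M : Type} [MetricSpace M] [CompactSpace M] [ChartedSpace E M] [IsManifold 𝓘(ℝ, E) ∞ M]
    [RiemannianBundle (fun x : M => TangentSpace 𝓘(ℝ, E) x)]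
    [IsContMDiffRiemannianBundle 𝓘(ℝ, E) ∞ E (fun x : M => TangentSpace 𝓘(ℝ, E) x)]
    [IsRiemannianManifold 𝓘(ℝ, E) M]

include E in
/-- `M` covered by `HP^m`, `m ≥ 1`. -/
theorem infinite_of_HPm_covering {m : ℕ} (hm : 1 ≤ m)
    {q : H133C.HPm m → M} (hq : IsCoveringMap q) : (primeClosedGeodesicImages M).Infinite := by
  refine infinite_of_localHomeomorph (E := E) hq.isLocalHomeomorph ?_
  intro N _ _ _ _ _ _ _ hN
  obtain ⟨e⟩ := hN
  exact H133C.infinite_of_HPm (E := E) hm e

include E in
/-- `M` covered by the Cayley plane. -/
theorem infinite_of_cayley_covering {q : CayleyPlane → M} (hq : IsCoveringMap q) :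
    (primeClosedGeodesicImages M).Infinite := by
  refine infinite_of_localHomeomorph (E := E) hq.isLocalHomeomorph ?_
  intro N _ _ _ _ _ _ _ hN
  obtain ⟨e⟩ := hN
  exact H133C.infinite_of_CaP2 (E := E) (e.trans homeoCayley)

include E in
/-- `M` covered by a topological model of a compact rank one symmetric space. -/
theorem infinite_of_modelCovered (h : ModelCovered M) :
    (primeClosedGeodesicImages M).Infinite := by
  cases h with
  | sphere hn q hq => exact infinite_of_sphere_covering2 E hn hq
  | complexProjective hn q hq e => exact infinite_of_CPn_covering E hn hq e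
  | quaternionicProjective hm q hq => exact infinite_of_HPm_covering E hm hq
  | cayleyPlane q hq => exact infinite_of_cayley_covering E hq

end Vale.Agent.P216.H126
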