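import Vale.Agent.P216.H609.Main
import Vale.Agent.P216.H126.Cover

/-!
# P216 (helper126): Theorem A for manifolds with a local isometry from a closed manifold of Theorem A
-/

open Set Topology Bundle Manifold
open scoped ContDiff
open Vale.Agent.P216.H288 Vale.Agent.P216.H494 Vale.Agent.P216.L250

namespace Vale.Agent.P216.H126

/-- **Theorem A for quotients**: `M` a Riemannian manifold with `HasOddCover M`. -/
theorem infinite_of_hasOddCover (F : Type*) [NormedAddCommGroup F] [NormedSpace ℝ F]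
    [FiniteDimensional ℝ F]
    {M : Type} [MetricSpace M] [CompactSpace M] [ChartedSpace F M] [IsManifold 𝓘(ℝ, F) ∞ M]
    [RiemannianBundle (fun x : M => TangentSpace 𝓘(ℝ, F) x)]
    [IsContMDiffRiemannianBundle 𝓘(ℝ, F) ∞ F (fun x : M => TangentSpace 𝓘(ℝ, F) x)]
    [IsRiemannianManifold 𝓘(ℝ, F) M] (h : HasOddCover M) :
    (primeClosedGeodesicImages M).Infinite := by
  obtain @⟨E, _, _, _, N, _, _, _, _, _, _, _, _, p, hp, K, d, hd, Φ, f, hf, V, _, _, T, hT, e, hχ⟩ := h
  exact infinite_of_locIsom (nonBranching_of_riemannian F M) hp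
    (H609.theoremA_maps (E := E) K d hd Φ f hf T hT e hχ)

/-- **Theorem A for quotients** of homotopy complex projective spaces. -/
theorem theoremA_cover_CPn (F : Type*) [NormedAddCommGroup F] [NormedSpace ℝ F]
    [FiniteDimensional ℝ F]
    {M : Type} [MetricSpace M] [CompactSpace M] [ChartedSpace F M] [IsManifold 𝓘(ℝ, F) ∞ M]
    [RiemannianBundle (fun x : M => TangentSpace 𝓘(ℝ, F) x)]
    [IsContMDiffRiemannianBundle 𝓘(ℝ, F) ∞ F (fun x : M => TangentSpace 𝓘(ℝ, F) x)]
    [IsRiemannianManifold 𝓘(ℝ, F) M]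
    (E : Type) [NormedAddCommGroup E] [NormedSpace ℝ E] [FiniteDimensional ℝ E]
    {N : Type} [MetricSpace N] [CompactSpace N] [ChartedSpace E N] [IsManifold 𝓘(ℝ, E) ∞ N]
    [RiemannianBundle (fun x : N => TangentSpace 𝓘(ℝ, E) x)]
    [IsContMDiffRiemannianBundle 𝓘(ℝ, E) ∞ E (fun x : N => TangentSpace 𝓘(ℝ, E) x)]
    [IsRiemannianManifold 𝓘(ℝ, E) N] {n : ℕ} (hn : 1 ≤ n) {p : N → M} (hp : IsLocIsom p)
    (e : ContinuousMap.HomotopyEquiv N (CPn n)) : (primeClosedGeodesicImages M).Infinite :=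
  infinite_of_locIsom (nonBranching_of_riemannian F M) hp (H609.theoremA_CPn (E := E) hn e)

end Vale.Agent.P216.H126
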