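import Vale.Agent.P216.H126.Stmt
import Mathlib.Analysis.InnerProductSpace.PiL2

/-!
# Definitions used in the statements about quotients of Riemannian spheres

* `HasSphereCover M n` : a closed Riemannian manifold homeomorphic to the unit sphere of dimension
  `n` has a local isometry to `M`.
-/

open Set Topology Bundle Manifold Metric
open scoped ContDiff

namespace Vale.Agent.P216.H126

/-- Some closed Riemannian manifold `N` homeomorphic to the unit sphere of `ℝ ^ (n + 1)` has a local
isometry `p : N → M` (for example the universal covering of `M` with the lifted metric if it is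
homeomorphic to the sphere, or `M` itself). -/
inductive HasSphereCover (M : Type) [MetricSpace M] (n : ℕ) : Prop
  | intro {E : Type} [NormedAddCommGroup E] [NormedSpace ℝ E] [FiniteDimensional ℝ E]
      {N : Type} [MetricSpace N] [CompactSpace N] [ChartedSpace E N] [IsManifold 𝓘(ℝ, E) ∞ N]
      [RiemannianBundle (fun x : N => TangentSpace 𝓘(ℝ, E) x)]
      [IsContMDiffRiemannianBundle 𝓘(ℝ, E) ∞ E (fun x : N => TangentSpace 𝓘(ℝ, E) x)]
      [IsRiemannianManifold 𝓘(ℝ, E) N]
      (p : N → M) (hp : IsLocIsom p)
      (e : N ≃ₜ sphere (0 : EuclideanSpace ℝ (Fin (n + 1))) 1) : HasSphereCover M n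

end Vale.Agent.P216.H126
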