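import Vale.Agent.P216.B64.MainN
import Vale.Agent.P216.H126.Cover
import Vale.Agent.P216.H126.Stmt2

/-!
# P216 (helper126): Theorem B for manifolds with a local isometry from a Riemannian sphere
-/

open Set Topology Bundle Manifold
open scoped ContDiff
open Vale.Agent.P216.H288 Vale.Agent.P216.H494 Vale.Agent.P216.L250

namespace Vale.Agent.P216.H126

/-- **Theorem B for quotients**, dimensions `n ≥ 4`, `n ≠ 1` modulo `4`. -/
theorem infinite_of_hasSphereCover_ne1 (F : Type*) [NormedAddCommGroup F] [NormedSpace ℝ F]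
    [FiniteDimensional ℝ F]
    {M : Type} [MetricSpace M] [CompactSpace M] [ChartedSpace F M] [IsManifold 𝓘(ℝ, F) ∞ M]
    [RiemannianBundle (fun x : M => TangentSpace 𝓘(ℝ, F) x)]
    [IsContMDiffRiemannianBundle 𝓘(ℝ, F) ∞ F (fun x : M => TangentSpace 𝓘(ℝ, F) x)]
    [IsRiemannianManifold 𝓘(ℝ, F) M] {n : ℕ} (hn : 4 ≤ n) (hn4 : n % 4 ≠ 1)
    (h : HasSphereCover M n) : (primeClosedGeodesicImages M).Infinite := by
  obtain @⟨E, _, _, _, N, _, _, _, _, _, _, _, p, hp, e⟩ := h
  exact infinite_of_locIsom (nonBranching_of_riemannian F M) hp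
    (B64.main_ne1 (E := E) hn hn4 e)

end Vale.Agent.P216.H126
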