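import Vale.Agent.P216.A215.Stmt
import Vale.Agent.P216.H133C.Def
import Mathlib.Analysis.Quaternion
import Mathlib.Topology.Covering.Basic

/-!
# Definitions used in the statement of the union theorem

* `octMul`, `octConj` : the product and the conjugation of the octonions, which are realised as
  pairs of quaternions (Cayley-Dickson).
* `CayleyPlane` : the projective plane over the octonions, realised as the set of the Hermitian
  idempotent matrices of trace one in the 3 x 3 matrices over the octonions.
* `ModelCovered M` : `M` (or a component of `M`) is covered by a sphere `S^n` (`n ≥ 2`), by a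
  compact connected Hausdorff space homotopy equivalent to `CP^n`, by `HP^m` or by the Cayley plane.
-/

open Set Topology Quaternion

namespace Vale.Agent.P216.H126

/-- The product of the octonions: `(a, b) (c, d) = (a c - d* b, d a + b c*)`. -/
noncomputable def octMul (x y : ℍ[ℝ] × ℍ[ℝ]) : ℍ[ℝ] × ℍ[ℝ] :=
  (x.1 * y.1 - star y.2 * x.2, y.2 * x.1 + x.2 * star y.1)

/-- The conjugation of the octonions: `(a, b)* = (a*, -b)`. -/
noncomputable def octConj (x : ℍ[ℝ] × ℍ[ℝ]) : ℍ[ℝ] × ℍ[ℝ] := (star x.1, -x.2)

/-- The 3 x 3 matrices over the octonions which are Hermitian, idempotent and of trace one. -/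
def cayleySet : Set (Fin 3 → Fin 3 → ℍ[ℝ] × ℍ[ℝ]) :=
  {A | (∀ i j, A j i = octConj (A i j)) ∧ (∀ i j, ∑ k, octMul (A i k) (A k j) = A i j) ∧
    ∑ i, A i i = (1, 0)}

/-- **The Cayley plane.** -/
abbrev CayleyPlane : Type := ↥cayleySet

/-- Some compact connected covering space of `M` (or of a component of `M`) is one of the
topological models of the compact rank one symmetric spaces. -/
inductive ModelCovered (M : Type) [TopologicalSpace M] : Prop
  /-- `S^n`, `n ≥ 2`. -/
  | sphere {n : ℕ} (hn : 2 ≤ n)
      (q : Metric.sphere (0 : EuclideanSpace ℝ (Fin (n + 1))) 1 → M) (hq : IsCoveringMap q) :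
      ModelCovered M
  /-- A compact connected Hausdorff space homotopy equivalent to `CP^n`. -/
  | complexProjective {n : ℕ} (hn : 1 ≤ n) {X : Type} [TopologicalSpace X] [CompactSpace X]
      [T2Space X] [ConnectedSpace X] (q : X → M) (hq : IsCoveringMap q)
      (e : ContinuousMap.HomotopyEquiv X (CPn n)) : ModelCovered M
  /-- `HP^m`. -/
  | quaternionicProjective {m : ℕ} (hm : 1 ≤ m) (q : H133C.HPm m → M) (hq : IsCoveringMap q) :
      ModelCovered M
  /-- The Cayley plane. -/
  | cayleyPlane (q : CayleyPlane → M) (hq : IsCoveringMap q) : ModelCovered M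

end Vale.Agent.P216.H126
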